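import Mathlib
import Vale.Agent.Lib.P226.H97.Regroup

/-
The theorem of this file (antipodal regrouping for the Gaussian propeller problem) and its
paper proof are due to helper35 (team report 2577). Lean formalisation: helper97.
-/

namespace Vale.Agent.Results.P226.CellReduction

open MeasureTheory ProbabilityTheory

/-- Antipodal regrouping for the Gaussian propeller problem: every measurable partition of
`ℝ^d` into `k + 1 ≥ 3` cells admits a measurable partition into `k` cells whose sum of squared
Gaussian first moments is at least the fraction `((k + 1)² k - 2 k + 2) / ((k + 1)² k)` of the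
original sum. -/
theorem result (d k : ℕ) (hk : 2 ≤ k)
    (A : Fin (k + 1) → Set (EuclideanSpace ℝ (Fin d)))
    (hA : ∀ i, MeasurableSet (A i)) (hdisj : ∀ i j, i ≠ j → Disjoint (A i) (A j))
    (hcover : ⋃ i, A i = Set.univ) :
    ∃ B : Fin k → Set (EuclideanSpace ℝ (Fin d)), (∀ m, MeasurableSet (B m)) ∧
      (∀ a b, a ≠ b → Disjoint (B a) (B b)) ∧ ⋃ m, B m = Set.univ ∧
      (((k : ℝ) + 1) ^ 2 * (k : ℝ) - 2 * (k : ℝ) + 2)
          * ∑ i, ‖∫ x in A i, x ∂(stdGaussian (EuclideanSpace ℝ (Fin d)))‖ ^ 2
        ≤ ((k : ℝ) + 1) ^ 2 * (k : ℝ)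
          * ∑ m, ‖∫ x in B m, x ∂(stdGaussian (EuclideanSpace ℝ (Fin d)))‖ ^ 2 :=
  Vale.Agent.Lib.P226.H97.cell_reduction_exists hk A hA hdisj hcover

end Vale.Agent.Results.P226.CellReduction
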