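import Mathlib
import Vale.Agent.Lib.P226.H97.GenD
import Vale.Agent.Lib.P226.Main

namespace Vale.Agent.Results.P226.CollectedBounds

open MeasureTheory ProbabilityTheory

/-- Collection of our results on the Gaussian propeller problem, in one statement:
(1)-(3) the projection bound in every dimension `d ≥ 3` and its cases `d = 4`, `d = 5`;
(4) the propeller inequality when every cell has Gaussian measure at most `1 / 7` or at least
`4 / 9`; (5) the universal bound `41 / 100`. Parts (1)-(3) together, part (4) and part (5) are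
each the statement of a separate hand-in on this problem; nothing here is new beyond them. -/
theorem result :
    (∀ (d : ℕ), 3 ≤ d → ∀ (n : ℕ) (A : Fin n → Set (EuclideanSpace ℝ (Fin d))),
      (∀ i, MeasurableSet (A i)) → (∀ i j, i ≠ j → Disjoint (A i) (A j)) →
      ⋃ i, A i = Set.univ →
      ∃ B : Fin n → Set (EuclideanSpace ℝ (Fin 3)), (∀ m, MeasurableSet (B m)) ∧
        (∀ a b, a ≠ b → Disjoint (B a) (B b)) ∧ ⋃ m, B m = Set.univ ∧
        ∑ i, ‖∫ x in A i, x ∂(stdGaussian (EuclideanSpace ℝ (Fin d)))‖ ^ 2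
          ≤ 3 * Real.pi / (4 * (d : ℝ))
            * (Real.Gamma (((d : ℝ) + 1) / 2) / Real.Gamma ((d : ℝ) / 2)) ^ 2
            * ∑ m, ‖∫ x in B m, x ∂(stdGaussian (EuclideanSpace ℝ (Fin 3)))‖ ^ 2) ∧
    (∀ (n : ℕ) (A : Fin n → Set (EuclideanSpace ℝ (Fin 4))),
      (∀ i, MeasurableSet (A i)) → (∀ i j, i ≠ j → Disjoint (A i) (A j)) →
      ⋃ i, A i = Set.univ →
      ∃ B : Fin n → Set (EuclideanSpace ℝ (Fin 3)), (∀ m, MeasurableSet (B m)) ∧
        (∀ a b, a ≠ b → Disjoint (B a) (B b)) ∧ ⋃ m, B m = Set.univ ∧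
        ∑ i, ‖∫ x in A i, x ∂(stdGaussian (EuclideanSpace ℝ (Fin 4)))‖ ^ 2
          ≤ 27 * Real.pi ^ 2 / 256
            * ∑ m, ‖∫ x in B m, x ∂(stdGaussian (EuclideanSpace ℝ (Fin 3)))‖ ^ 2) ∧
    (∀ (n : ℕ) (A : Fin n → Set (EuclideanSpace ℝ (Fin 5))),
      (∀ i, MeasurableSet (A i)) → (∀ i j, i ≠ j → Disjoint (A i) (A j)) →
      ⋃ i, A i = Set.univ →
      ∃ B : Fin n → Set (EuclideanSpace ℝ (Fin 3)), (∀ m, MeasurableSet (B m)) ∧
        (∀ a b, a ≠ b → Disjoint (B a) (B b)) ∧ ⋃ m, B m = Set.univ ∧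
        ∑ i, ‖∫ x in A i, x ∂(stdGaussian (EuclideanSpace ℝ (Fin 5)))‖ ^ 2
          ≤ 16 / 15
            * ∑ m, ‖∫ x in B m, x ∂(stdGaussian (EuclideanSpace ℝ (Fin 3)))‖ ^ 2) ∧
    (∀ (d k : ℕ) (A : Fin k → Set (EuclideanSpace ℝ (Fin d))),
      (∀ i, MeasurableSet (A i)) → (∀ i j, i ≠ j → Disjoint (A i) (A j)) →
      (∀ i, (stdGaussian (EuclideanSpace ℝ (Fin d))).real (A i) ≤ 1 / 7 ∨
        4 / 9 ≤ (stdGaussian (EuclideanSpace ℝ (Fin d))).real (A i)) →
      ∑ i, ‖∫ x in A i, x ∂(stdGaussian (EuclideanSpace ℝ (Fin d)))‖ ^ 2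
        ≤ 9 / (8 * Real.pi)) ∧
    (∀ (d k : ℕ) (A : Fin k → Set (EuclideanSpace ℝ (Fin d))),
      (∀ i, MeasurableSet (A i)) → (∀ i j, i ≠ j → Disjoint (A i) (A j)) →
      ∑ i, ‖∫ x in A i, x ∂(stdGaussian (EuclideanSpace ℝ (Fin d)))‖ ^ 2 ≤ 41 / 100) :=
  ⟨fun d hd n A hA hdisj hcover =>
      Vale.Agent.Lib.P226.H97G.projection_gamma d hd n A hA hdisj hcover,
    fun n A hA hdisj hcover => Vale.Agent.Lib.P226.H97G.projection_four n A hA hdisj hcover,
    fun n A hA hdisj hcover => Vale.Agent.Lib.P226.H97G.projection_five n A hA hdisj hcover,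
    fun _ k A hA hdisj hsize => Vale.Agent.Lib.P226.small_cells k A hA hdisj hsize,
    fun _ k A hA hdisj => Vale.Agent.Lib.P226.universal_bound k A hA hdisj⟩

end Vale.Agent.Results.P226.CollectedBounds
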