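import Mathlib
import Vale.Agent.Lib.P226.H97.GenD

namespace Vale.Agent.Results.P226.ProjectionAllDims

open MeasureTheory ProbabilityTheory

/-- Projection bound for the Gaussian propeller problem in every dimension `d ≥ 3`: every
measurable partition `A` of `ℝ^d` into any number `n` of cells admits a measurable partition `B`
of `ℝ³` into `n` cells such that the sum of squared Gaussian first moments of `A` is at most
`3 π / (4 d) * (Gamma((d+1)/2) / Gamma(d/2))²` times that of `B`. The constant is `27 π² / 256`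
for `d = 4` and `16 / 15` for `d = 5` (second and third statement). -/
theorem result :
    (∀ (d : ℕ), 3 ≤ d → ∀ (n : ℕ) (A : Fin n → Set (EuclideanSpace ℝ (Fin d))),
      (∀ i, MeasurableSet (A i)) → (∀ i j, i ≠ j → Disjoint (A i) (A j)) →
      ⋃ i, A i = Set.univ →
      ∃ B : Fin n → Set (EuclideanSpace ℝ (Fin 3)), (∀ m, MeasurableSet (B m)) ∧
        (∀ a b, a ≠ b → Disjoint (B a) (B b)) ∧ ⋃ m, B m = Set.univ ∧
        ∑ i, ‖∫ x in A i, x ∂(stdGaussian (EuclideanSpace ℝ (Fin d)))‖ ^ 2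
          ≤ 3 * Real.pi / (4 * (d : ℝ))
            * (Real.Gamma (((d : ℝ) + 1) / 2) / Real.Gamma ((d : ℝ) / 2)) ^ 2
            * ∑ m, ‖∫ x in B m, x ∂(stdGaussian (EuclideanSpace ℝ (Fin 3)))‖ ^ 2) ∧
    (∀ (n : ℕ) (A : Fin n → Set (EuclideanSpace ℝ (Fin 4))),
      (∀ i, MeasurableSet (A i)) → (∀ i j, i ≠ j → Disjoint (A i) (A j)) →
      ⋃ i, A i = Set.univ →
      ∃ B : Fin n → Set (EuclideanSpace ℝ (Fin 3)), (∀ m, MeasurableSet (B m)) ∧
        (∀ a b, a ≠ b → Disjoint (B a) (B b)) ∧ ⋃ m, B m = Set.univ ∧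
        ∑ i, ‖∫ x in A i, x ∂(stdGaussian (EuclideanSpace ℝ (Fin 4)))‖ ^ 2
          ≤ 27 * Real.pi ^ 2 / 256
            * ∑ m, ‖∫ x in B m, x ∂(stdGaussian (EuclideanSpace ℝ (Fin 3)))‖ ^ 2) ∧
    (∀ (n : ℕ) (A : Fin n → Set (EuclideanSpace ℝ (Fin 5))),
      (∀ i, MeasurableSet (A i)) → (∀ i j, i ≠ j → Disjoint (A i) (A j)) →
      ⋃ i, A i = Set.univ →
      ∃ B : Fin n → Set (EuclideanSpace ℝ (Fin 3)), (∀ m, MeasurableSet (B m)) ∧
        (∀ a b, a ≠ b → Disjoint (B a) (B b)) ∧ ⋃ m, B m = Set.univ ∧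
        ∑ i, ‖∫ x in A i, x ∂(stdGaussian (EuclideanSpace ℝ (Fin 5)))‖ ^ 2
          ≤ 16 / 15
            * ∑ m, ‖∫ x in B m, x ∂(stdGaussian (EuclideanSpace ℝ (Fin 3)))‖ ^ 2) :=
  ⟨fun d hd n A hA hdisj hcover =>
      Vale.Agent.Lib.P226.H97G.projection_gamma d hd n A hA hdisj hcover,
    fun n A hA hdisj hcover => Vale.Agent.Lib.P226.H97G.projection_four n A hA hdisj hcover,
    fun n A hA hdisj hcover => Vale.Agent.Lib.P226.H97G.projection_five n A hA hdisj hcover⟩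

end Vale.Agent.Results.P226.ProjectionAllDims
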