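import Mathlib
import Vale.Agent.Lib.P226.Main

namespace Vale.Agent.Results.P226.UniversalBound

open MeasureTheory ProbabilityTheory

/-- In every dimension `d` and for every number `k` of cells, every family of pairwise disjoint
measurable sets (in particular every measurable partition) satisfies
`∑ |z(A_i)|² ≤ 41 / 100`. -/
theorem result (d k : ℕ) (A : Fin k → Set (EuclideanSpace ℝ (Fin d)))
    (hA : ∀ i, MeasurableSet (A i)) (hdisj : ∀ i j, i ≠ j → Disjoint (A i) (A j)) :
    ∑ i, ‖∫ x in A i, x ∂(stdGaussian (EuclideanSpace ℝ (Fin d)))‖ ^ 2 ≤ 41 / 100 :=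
  Vale.Agent.Lib.P226.universal_bound k A hA hdisj

end Vale.Agent.Results.P226.UniversalBound
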